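import Vale.Agent.P101.JiangSu.Mult

/-!
The numbers and point maps of the Jiang-Su construction.
-/

noncomputable section

namespace Vale.Agent.P101.JiangSu

open Matrix

/-- The sizes `(2 ^ m, 2 ^ m + 1)` of a prime dimension drop algebra. -/
structure Dims where
  m : ℕ
  two_le_m : 2 ≤ m

namespace Dims

variable (d : Dims)

/-- The first size. -/
abbrev P : ℕ := 2 ^ d.m

/-- The second size. -/
abbrev Q : ℕ := d.P + 1

theorem four_le : 4 ≤ d.P := by
  calc 4 = 2 ^ 2 := by norm_num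
    _ ≤ 2 ^ d.m := Nat.pow_le_pow_right two_pos d.two_le_m

theorem P_pos : 0 < d.P := lt_of_lt_of_le (by norm_num) d.four_le

theorem Q_pos : 0 < d.Q := Nat.succ_pos _

theorem coprime : Nat.Coprime d.P d.Q := by simp [Q, Nat.coprime_self_add_right]

/-- The first factor of a step. -/
def k₀ : ℕ := d.P ^ 2

/-- The second factor of a step. -/
def k₁ : ℕ := d.P ^ 2 - d.P + 1

/-- The next pair of sizes. -/
def next : Dims where
  m := 3 * d.m
  two_le_m := by have := d.two_le_m; omega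

theorem next_P : d.next.P = d.k₀ * d.P := by
  simp only [next, P, k₀, ← pow_succ, ← pow_mul]
  ring_nf

theorem next_Q : d.next.Q = d.k₁ * d.Q := by
  obtain ⟨c, hc⟩ := Nat.exists_eq_add_of_le (Nat.le_self_pow (two_ne_zero) d.P)
  have h : d.k₁ = c + 1 := by simp only [k₁]; omega
  rw [h, Q, next_P, k₀]
  simp only [Q]
  nlinarith [hc]

/-- The number of point maps of a step. -/
def k : ℕ := d.k₀ * d.k₁

/-- The number of maps into the left half: congruent to `k` modulo the next `Q`. -/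
def r₀ : ℕ := (d.k - 1) % d.next.Q + 1

/-- The number of maps into the right half: congruent to `k` modulo the next `P`. -/
def r₁ : ℕ := (d.k - 1) % d.next.P + 1

theorem k_pos : 0 < d.k := Nat.mul_pos (pow_pos d.P_pos 2) (Nat.succ_pos _)

theorem r_add_le : d.r₀ + d.r₁ ≤ d.k := by
  have h4 := d.four_le
  have h0 : 2 * d.Q ≤ d.k₀ := by simp only [Q, k₀]; nlinarith
  have h1 : 2 * d.P ≤ d.k₁ := by
    have h : 3 * d.P ≤ d.P ^ 2 := by nlinarith
    simp only [k₁]; omega
  have a0 : d.r₀ ≤ d.next.Q := Nat.mod_lt _ d.next.Q_pos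
  have a1 : d.r₁ ≤ d.next.P := Nat.mod_lt _ d.next.P_pos
  have b0 : 2 * d.next.Q ≤ d.k := by
    show 2 * d.next.Q ≤ d.k₀ * d.k₁
    rw [next_Q]
    nlinarith
  have b1 : 2 * d.next.P ≤ d.k := by
    show 2 * d.next.P ≤ d.k₀ * d.k₁
    rw [next_P]
    nlinarith
  omega

theorem dvd_sub_r₀ : d.next.Q ∣ d.k - d.r₀ := by
  unfold r₀
  rw [show d.k - ((d.k - 1) % d.next.Q + 1) = d.k - 1 - (d.k - 1) % d.next.Q by omega]
  exact Nat.dvd_sub_mod _

theorem dvd_sub_r₁ : d.next.P ∣ d.k - d.r₁ := by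
  unfold r₁
  rw [show d.k - ((d.k - 1) % d.next.P + 1) = d.k - 1 - (d.k - 1) % d.next.P by omega]
  exact Nat.dvd_sub_mod _

theorem dvd_r₀_mul : d.next.Q ∣ d.Q * d.r₀ := by
  rw [next_Q, mul_comm d.Q]
  refine Nat.mul_dvd_mul_right ?_ _
  have h : d.k₁ ∣ d.k - (d.k - d.r₀) := Nat.dvd_sub (dvd_mul_left _ _)
    ((dvd_mul_right _ _).trans (d.next_Q ▸ d.dvd_sub_r₀))
  have := d.r_add_le
  rwa [show d.k - (d.k - d.r₀) = d.r₀ by omega] at h

theorem dvd_r₁_mul : d.next.P ∣ d.P * d.r₁ := by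
  rw [next_P, mul_comm d.P]
  refine Nat.mul_dvd_mul_right ?_ _
  have h : d.k₀ ∣ d.k - (d.k - d.r₁) := Nat.dvd_sub (dvd_mul_right _ _)
    ((dvd_mul_right _ _).trans (d.next_P ▸ d.dvd_sub_r₁))
  have := d.r_add_le
  rwa [show d.k - (d.k - d.r₁) = d.r₁ by omega] at h

/-- The point maps of a step: `t/2`, `1/2` and `(t+1)/2`. -/
def xi (i : Fin d.k) : C(unitInterval, unitInterval) where
  toFun t :=
    if i.val < d.r₀ then ⟨(t : ℝ) / 2, by constructor <;> linarith [t.2.1, t.2.2]⟩
    else if d.k - d.r₁ ≤ i.val then ⟨((t : ℝ) + 1) / 2, by constructor <;> linarith [t.2.1, t.2.2]⟩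
    else ⟨1 / 2, by norm_num⟩
  continuous_toFun := by split_ifs <;> fun_prop

theorem xi_contract (i : Fin d.k) (s t : unitInterval) :
    |(d.xi i s : ℝ) - d.xi i t| ≤ |(s : ℝ) - t| / 2 := by
  have e : ∀ a b : ℝ, |a / 2 - b / 2| = |a - b| / 2 := fun a b => by
    rw [← sub_div, abs_div, abs_two]
  simp only [xi, ContinuousMap.coe_mk]
  split_ifs
  · rw [e]
  · rw [e, add_sub_add_right_eq_sub]
  · simp only [sub_self, abs_zero]; positivity

/-- The point `1/2`. -/
def half : unitInterval := ⟨1 / 2, by norm_num⟩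

theorem xi_zero (i : Fin d.k) : d.xi i 0 = if i.val < d.r₀ then 0 else half := by
  simp only [xi, half, ContinuousMap.coe_mk]
  split_ifs <;> ext <;> simp

theorem xi_one (i : Fin d.k) : d.xi i 1 = if d.k - d.r₁ ≤ i.val then 1 else half := by
  have := d.r_add_le
  simp only [xi, half, ContinuousMap.coe_mk]
  split_ifs <;> first | omega | (ext; simp)

theorem card_xi_lt : Fintype.card {i : Fin d.k // i.val < d.r₀} = d.r₀ := by
  have := d.r_add_le
  rw [Fintype.card_congr (⟨fun i => ⟨i.1.val, i.2⟩, fun j => ⟨⟨j.val, by omega⟩, j.2⟩,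
    fun i => rfl, fun j => rfl⟩ : {i : Fin d.k // i.val < d.r₀} ≃ Fin d.r₀), Fintype.card_fin]

theorem card_xi_ge : Fintype.card {i : Fin d.k // d.k - d.r₁ ≤ i.val} = d.r₁ := by
  have := d.r_add_le
  rw [Fintype.card_congr (⟨fun i => ⟨i.1.val - (d.k - d.r₁), by omega⟩,
    fun j => ⟨⟨j.val + (d.k - d.r₁), by omega⟩, by simp⟩,
    fun i => Subtype.ext (Fin.ext (by simp only; have := i.2; omega)),
    fun j => Fin.ext (by simp)⟩ : {i : Fin d.k // d.k - d.r₁ ≤ i.val} ≃ Fin d.r₁),
    Fintype.card_fin]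

/-- The multiplicities at the two endpoints of a step. -/
theorem hasMult_xi {D K : Type*} [Fintype K] (ev : D → unitInterval → Matrix K K ℂ)
    (h0 : HasMult (fun f => ev f 0) d.Q) (h1 : HasMult (fun f => ev f 1) d.P) :
    HasMult (fun f => blockDiagonal fun i => ev f (d.xi i 0)) d.next.Q ∧
      HasMult (fun f => blockDiagonal fun i => ev f (d.xi i 1)) d.next.P := by
  classical
  have hh : HasMult (fun f => ev f half) 1 :=
    ⟨Fintype.card K, (Fintype.equivFin K).trans (Equiv.prodUnique _ _).symm,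
      fun f => (ev f half).submatrix (Fintype.equivFin K).symm (Fintype.equivFin K).symm,
      fun f x y => by simp⟩
  constructor
  · refine HasMult.split (fun i : Fin d.k => i.val < d.r₀) ?_ ?_
    · exact h0.const_blocks (fun f i => by rw [d.xi_zero, if_pos i.2])
        (by rw [d.card_xi_lt]; exact d.dvd_r₀_mul)
    · exact hh.const_blocks (fun f i => by rw [d.xi_zero, if_neg i.2]) (by
        rw [one_mul, Fintype.card_subtype_compl, d.card_xi_lt, Fintype.card_fin]
        exact d.dvd_sub_r₀)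
  · refine HasMult.split (fun i : Fin d.k => d.k - d.r₁ ≤ i.val) ?_ ?_
    · exact h1.const_blocks (fun f i => by rw [d.xi_one, if_pos i.2])
        (by rw [d.card_xi_ge]; exact d.dvd_r₁_mul)
    · exact hh.const_blocks (fun f i => by rw [d.xi_one, if_neg i.2]) (by
        rw [one_mul, Fintype.card_subtype_compl, d.card_xi_ge, Fintype.card_fin]
        exact d.dvd_sub_r₁)

theorem card_next : d.P * d.Q * d.k = d.next.P * d.next.Q := by
  rw [next_P, next_Q, k]
  ring

/-- The dimensions of the sequence, starting at `(4, 5)`. -/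
def seq : ℕ → Dims
  | 0 => ⟨2, le_rfl⟩
  | j + 1 => (seq j).next

end Dims

end Vale.Agent.P101.JiangSu
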