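import Vale.Agent.P101.JiangSu.Diag
import Vale.Agent.P101.JiangSu.Seq

/-!
The inductive system of the Jiang-Su algebra: connecting maps, near constancy of the images and
spreading of supports.
-/

noncomputable section

open scoped ComplexOrder Topology

namespace Vale.Agent.P101.JiangSu

open Filter unitInterval Drop

set_option maxSynthPendingDepth 3

/-- The index set of the fibres. -/
abbrev Dims.Idx (d : Dims) : Type := Fin d.P × Fin d.Q

theorem hasMult_left (d : Dims) :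
    HasMult (fun f : dropAlg d.P d.Q ℂ =>
      CStarMatrix.ofMatrix.symm ((f : C(I, CStarMatrix d.Idx d.Idx ℂ)) 0)) d.Q :=
  ⟨d.P, Equiv.refl _, fun f => f.2.1.choose, fun f x y => f.2.1.choose_spec x y⟩

theorem hasMult_right (d : Dims) :
    HasMult (fun f : dropAlg d.P d.Q ℂ =>
      CStarMatrix.ofMatrix.symm ((f : C(I, CStarMatrix d.Idx d.Idx ℂ)) 1)) d.P :=
  ⟨d.Q, Equiv.prodComm _ _, fun f => f.2.2.choose,
    fun f x y => f.2.2.choose_spec x y⟩

theorem exists_step (d : Dims) : ∃ D : Diag d.Idx d.next.Idx d.k, D.xi = d.xi ∧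
    ∀ f ∈ dropAlg d.P d.Q ℂ, D.hom f ∈ dropAlg d.next.P d.next.Q ℂ := by
  classical
  obtain ⟨h0, h1⟩ := d.hasMult_xi
    (fun (f : dropAlg d.P d.Q ℂ) t =>
      CStarMatrix.ofMatrix.symm ((f : C(I, CStarMatrix d.Idx d.Idx ℂ)) t))
    (hasMult_left d) (hasMult_right d)
  have hc : Fintype.card (d.Idx × Fin d.k) = d.next.P * d.next.Q := by
    simp [d.card_next]
  obtain ⟨e₀, a₀, ha₀⟩ := h0.exists_equiv d.next.Q_pos.ne' hc
  obtain ⟨e₁', a₁, ha₁⟩ := h1.exists_equiv (P := d.next.Q) d.next.P_pos.ne' (hc.trans (mul_comm _ _))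
  set e₁ : d.Idx × Fin d.k ≃ d.next.Idx := e₁'.trans (Equiv.prodComm _ _) with he₁
  set perm : Equiv.Perm d.next.Idx := e₁.symm.trans e₀ with hperm₀
  obtain ⟨γ, hc', hu, hγ0, hγ1⟩ := exists_perm_path perm
  obtain ⟨V, hVu, hV0, hV1⟩ : ∃ V : C(I, CStarMatrix d.next.Idx d.next.Idx ℂ),
      (∀ t, V t ∈ unitary _) ∧ V 0 = 1 ∧
        V 1 = CStarMatrix.ofMatrix ((1 : Matrix d.next.Idx d.next.Idx ℂ).submatrix perm id) :=
    ⟨⟨fun t => CStarMatrix.ofMatrix (γ t), hc'.comp continuous_subtype_val⟩, fun t => hu t,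
      congrArg CStarMatrix.ofMatrix hγ0, congrArg CStarMatrix.ofMatrix hγ1⟩
  refine ⟨⟨e₀, d.xi, V, hVu⟩, rfl, fun f hf => ⟨⟨fun i j => a₀ ⟨f, hf⟩ i j, ?_⟩,
      ⟨fun k l => a₁ ⟨f, hf⟩ k l, ?_⟩⟩⟩ <;> rintro ⟨i, k⟩ ⟨j, l⟩
  · rw [Diag.hom_apply]
    simp only [hV0, one_mul, star_one, mul_one, Diag.core]
    have h := ha₀ ⟨f, hf⟩ (e₀.symm (i, k)) (e₀.symm (j, l))
    simp only [Matrix.blockDiagonal_apply, Equiv.apply_symm_apply] at h
    exact h
  · rw [Diag.hom_apply]
    simp only [hV1, Diag.core]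
    have hperm : ∀ M : CStarMatrix d.next.Idx d.next.Idx ℂ, ∀ x y,
        (CStarMatrix.ofMatrix ((1 : Matrix d.next.Idx d.next.Idx ℂ).submatrix perm id) * M *
          star (CStarMatrix.ofMatrix ((1 : Matrix d.next.Idx d.next.Idx ℂ).submatrix perm id))) x y =
        M (perm x) (perm y) := by
      intro M x y
      change ∑ c, (∑ b, (if perm x = b then (1 : ℂ) else 0) * M b c) *
        star (if perm y = c then (1 : ℂ) else 0) = _
      simp [apply_ite star]
    rw [hperm]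
    have h := ha₁ ⟨f, hf⟩ (e₁.symm (i, k)) (e₁.symm (j, l))
    simp only [Matrix.blockDiagonal_apply] at h
    simp only [he₁, Equiv.symm_trans_apply, Equiv.prodComm_symm, Equiv.prodComm_apply,
      Prod.swap_prod_mk, Equiv.apply_symm_apply] at h
    refine Eq.trans ?_ h
    simp only [blockHom_apply, hperm₀, he₁, Equiv.trans_apply, Equiv.symm_apply_apply,
      Equiv.symm_trans_apply, Equiv.prodComm_symm, Equiv.prodComm_apply, Prod.swap_prod_mk]
    rfl

/-- One step of the system. -/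
def stepDiag (d : Dims) : Diag d.Idx d.next.Idx d.k := (exists_step d).choose

theorem stepDiag_xi (d : Dims) : (stepDiag d).xi = d.xi := (exists_step d).choose_spec.1

/-- The first size at stage `j`. -/
def p (j : ℕ) : ℕ := (Dims.seq j).P

/-- The second size at stage `j`. -/
def q (j : ℕ) : ℕ := (Dims.seq j).Q

/-- The ambient algebra at stage `j`. -/
abbrev Amb (j : ℕ) := C(I, CStarMatrix (Fin (p j) × Fin (q j)) (Fin (p j) × Fin (q j)) ℂ)

theorem two_le_p (j : ℕ) : 2 ≤ p j := le_trans (by norm_num) (Dims.seq j).four_le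

theorem two_le_q (j : ℕ) : 2 ≤ q j := (two_le_p j).trans (Nat.le_succ _)

instance (j : ℕ) : NeZero (p j) := ⟨fun h => by have := two_le_p j; omega⟩

instance (j : ℕ) : NeZero (q j) := ⟨fun h => by have := two_le_q j; omega⟩

theorem coprime_p_q (j : ℕ) : (p j).Coprime (q j) := (Dims.seq j).coprime

/-- The point maps, relabelling and unitaries of the connecting map. -/
def connDiag (j : ℕ) :
    Diag (Fin (p j) × Fin (q j)) (Fin (p (j + 1)) × Fin (q (j + 1))) (Dims.seq j).k :=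
  stepDiag (Dims.seq j)

theorem connDiag_xi (j : ℕ) : (connDiag j).xi = (Dims.seq j).xi := stepDiag_xi _

theorem connDiag_mem (j : ℕ) (f : dropAlg (p j) (q j) ℂ) :
    (connDiag j).hom (f : Amb j) ∈ dropAlg (p (j + 1)) (q (j + 1)) ℂ :=
  (exists_step (Dims.seq j)).choose_spec.2 f.val f.property

/-- Restriction of a homomorphism to dimension drop algebras. -/
def restrictHom {P Q P' Q' : ℕ} (φ : C(I, CStarMatrix (Fin P × Fin Q) (Fin P × Fin Q) ℂ) →⋆ₐ[ℂ]
      C(I, CStarMatrix (Fin P' × Fin Q') (Fin P' × Fin Q') ℂ))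
    (h : ∀ f : dropAlg P Q ℂ, φ f ∈ dropAlg P' Q' ℂ) : dropAlg P Q ℂ →⋆ₐ[ℂ] dropAlg P' Q' ℂ :=
  StarAlgHom.codRestrict (φ.comp (StarSubalgebra.subtype _)) (dropAlg P' Q' ℂ) h

/-- The connecting map. -/
def conn (j : ℕ) : dropAlg (p j) (q j) ℂ →⋆ₐ[ℂ] dropAlg (p (j + 1)) (q (j + 1)) ℂ :=
  restrictHom (connDiag j).hom (connDiag_mem j)

theorem coe_conn (j : ℕ) (f : dropAlg (p j) (q j) ℂ) :
    (conn j f : Amb (j + 1)) = (connDiag j).hom (f : Amb j) := rfl

/-- The composites of the connecting maps. -/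
def connTo (i : ℕ) : ∀ n, dropAlg (p i) (q i) ℂ →⋆ₐ[ℂ] dropAlg (p (i + n)) (q (i + n)) ℂ
  | 0 => StarAlgHom.id ℂ _
  | n + 1 => (conn (i + n)).comp (connTo i n)

theorem connTo_zero (i : ℕ) (f : dropAlg (p i) (q i) ℂ) : connTo i 0 f = f := rfl

theorem connTo_succ (i n : ℕ) (f : dropAlg (p i) (q i) ℂ) :
    connTo i (n + 1) f = conn (i + n) (connTo i n f) := rfl

/-- Every point of the interval is a value of a point map. -/
theorem Dims.exists_xi_eq (d : Dims) (x : I) : ∃ i s, d.xi i s = x := by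
  have h := d.r_add_le
  have h0 : 0 < d.r₀ := Nat.succ_pos _
  have h1 : 0 < d.r₁ := Nat.succ_pos _
  rcases le_total (x : ℝ) (1 / 2) with hx | hx
  · refine ⟨⟨0, by omega⟩, ⟨2 * x, by constructor <;> linarith [x.2.1]⟩, ?_⟩
    simp only [Dims.xi, ContinuousMap.coe_mk, if_pos h0]
    ext
    simp
  · refine ⟨⟨d.k - 1, by omega⟩, ⟨2 * x - 1, by constructor <;> linarith [x.2.2]⟩, ?_⟩
    simp only [Dims.xi, ContinuousMap.coe_mk, if_neg (show ¬ d.k - 1 < d.r₀ by omega),
      if_pos (show d.k - d.r₁ ≤ d.k - 1 by omega)]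
    ext
    simp

/-- A composite is given by contracting point maps which cover the interval. -/
theorem connTo_spec (i : ℕ) : ∀ n, ∃ (N : ℕ)
    (D : Diag (Fin (p i) × Fin (q i)) (Fin (p (i + n)) × Fin (q (i + n))) N),
      (∀ f : dropAlg (p i) (q i) ℂ, (connTo i n f : Amb (i + n)) = D.hom (f : Amb i)) ∧
      (∀ a s t, |(D.xi a s : ℝ) - D.xi a t| ≤ |(s : ℝ) - t| / 2 ^ n) ∧
      ∀ x, ∃ a s, D.xi a s = x
  | 0 => by
    refine ⟨1, ⟨Equiv.prodUnique _ _, fun _ => ContinuousMap.id _, 1, fun _ => one_mem _⟩,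
      fun f => ?_, fun a s t => by simp, fun x => ⟨0, x, rfl⟩⟩
    refine ContinuousMap.ext fun t => ?_
    rw [Diag.hom_apply]
    simp only [ContinuousMap.one_apply, one_mul, star_one, mul_one, Diag.core]
    refine CStarMatrix.ext fun x y => ?_
    simp [blockHom_apply, connTo_zero]
  | n + 1 => by
    obtain ⟨N, D, hD, hc, hs⟩ := connTo_spec i n
    refine ⟨N * _, (connDiag (i + n)).comp D, fun f => ?_, fun a s t => ?_, fun x => ?_⟩
    · exact ((coe_conn _ _).trans (congrArg _ (hD f))).trans (Diag.comp_hom _ D _).symm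
    · refine (hc _ _ _).trans ?_
      rw [pow_succ', ← div_div]
      refine div_le_div_of_nonneg_right ?_ (by positivity)
      rw [connDiag_xi]
      exact (Dims.seq (i + n)).xi_contract _ s t
    · obtain ⟨a, s, hs⟩ := hs x
      obtain ⟨b, u, hu⟩ := (Dims.seq (i + n)).exists_xi_eq s
      refine ⟨finProdFinEquiv (a, b), u, ?_⟩
      simp only [Diag.comp, connDiag_xi, Equiv.symm_apply_apply, ContinuousMap.comp_apply, hu, hs]

theorem conn_injective (j : ℕ) : Function.Injective (conn j) := by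
  intro f g hfg
  refine Subtype.ext (ContinuousMap.ext fun x => ?_)
  by_contra hne
  obtain ⟨a, s, rfl⟩ := (Dims.seq j).exists_xi_eq x
  refine (connDiag j).hom_ne_zero (f := (f : Amb j) - g) (t := s) (i := a)
    (by rwa [connDiag_xi, ContinuousMap.sub_apply, sub_ne_zero]) ?_
  rw [map_sub, ← coe_conn, ← coe_conn, hfg, sub_self, ContinuousMap.zero_apply]

theorem eventually_pow_le {δ : ℝ} (hδ : 0 < δ) : ∀ᶠ n : ℕ in atTop, (1 : ℝ) / 2 ^ n < δ := by
  have h := tendsto_pow_atTop_nhds_zero_of_lt_one (r := (1 / 2 : ℝ)) (by norm_num) (by norm_num)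
  filter_upwards [h.eventually (eventually_lt_nhds hδ)] with n hn
  rwa [div_pow, one_pow] at hn

theorem abs_sub_le_one (s t : I) : |(s : ℝ) - t| ≤ 1 :=
  abs_le.2 ⟨by linarith [s.2.1, t.2.2], by linarith [s.2.2, t.2.1]⟩

/-- Far along the system the images are nearly constant up to a path of unitaries. -/
theorem near_constant (i : ℕ) (G : Finset (dropAlg (p i) (q i) ℂ)) {ε : ℝ} (hε : 0 < ε) :
    ∀ᶠ n in atTop, ∃ v : Amb (i + n), (∀ t, v t ∈ unitary _) ∧ v 0 = 1 ∧
      ∀ f ∈ G, ∀ t, ‖(connTo i n f : Amb (i + n)) t -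
        v t * (connTo i n f : Amb (i + n)) 0 * star (v t)‖ ≤ ε := by
  classical
  obtain ⟨δ, hδ, hG⟩ := Metric.uniformContinuous_iff.1 (CompactSpace.uniformContinuous_of_continuous
    (f := fun x : I => fun f : G => ((f : dropAlg (p i) (q i) ℂ) : Amb i) x)
    (continuous_pi fun f => ((f : dropAlg (p i) (q i) ℂ) : Amb i).continuous)) ε hε
  filter_upwards [eventually_pow_le hδ] with n hn
  obtain ⟨N, D, hD, hc, -⟩ := connTo_spec i n
  refine ⟨⟨fun t => D.U t * star (D.U 0), D.U.continuous.mul continuous_const⟩,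
    fun t => mul_mem (D.unitary t) (Unitary.star_mem (D.unitary 0)),
    Unitary.mul_star_self_of_mem (D.unitary 0), fun f hf t => ?_⟩
  rw [hD, Diag.hom_apply, Diag.hom_apply]
  simp only [ContinuousMap.coe_mk, star_mul, star_star]
  rw [show D.U t * star (D.U 0) * (D.U 0 * D.core f 0 * star (D.U 0)) * (D.U 0 * star (D.U t)) =
      D.U t * (star (D.U 0) * D.U 0) * D.core f 0 * (star (D.U 0) * D.U 0) * star (D.U t) by
      simp only [mul_assoc], Unitary.star_mul_self_of_mem (D.unitary 0), mul_one, mul_one,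
    ← sub_mul, ← mul_sub, CStarRing.norm_mul_mem_unitary _ (Unitary.star_mem (D.unitary t)),
    CStarRing.norm_mem_unitary_mul _ (D.unitary t), Diag.core, Diag.core, ← map_sub]
  refine norm_blockHom_le _ hε.le fun a => ?_
  have hd : dist (D.xi a t) (D.xi a 0) < δ := by
    rw [Subtype.dist_eq, Real.dist_eq]
    refine ((hc a t 0).trans ?_).trans_lt hn
    gcongr
    exact abs_sub_le_one t 0
  have h := (dist_le_pi_dist _ _ (⟨f, hf⟩ : G)).trans (hG hd).le
  rwa [dist_eq_norm] at h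

/-- Far along the system a nonzero element is nonzero at every point. -/
theorem spread {i : ℕ} {f : dropAlg (p i) (q i) ℂ} (hf : f ≠ 0) :
    ∀ᶠ n in atTop, ∀ t, (connTo i n f : Amb (i + n)) t ≠ 0 := by
  obtain ⟨x, hx⟩ : ∃ x, (f : Amb i) x ≠ 0 := by
    by_contra! h
    exact hf (Subtype.ext (ContinuousMap.ext h))
  obtain ⟨δ, hδ, hb⟩ := Metric.mem_nhds_iff.1
    ((f : Amb i).continuous.continuousAt.eventually_ne hx)
  filter_upwards [eventually_pow_le hδ] with n hn t
  obtain ⟨N, D, hD, hc, hs⟩ := connTo_spec i n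
  obtain ⟨a, s, rfl⟩ := hs x
  rw [hD]
  refine D.hom_ne_zero (i := a) (hb ?_)
  rw [Metric.mem_ball, Subtype.dist_eq, Real.dist_eq]
  refine ((hc a t s).trans ?_).trans_lt hn
  gcongr
  exact abs_sub_le_one t s

end Vale.Agent.P101.JiangSu
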