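import Vale.Agent.P101.Drop.Defs

/-!
Homomorphisms given by point maps and a path of unitaries.
-/

noncomputable section

open scoped ComplexOrder

namespace Vale.Agent.P101.JiangSu

variable {K J L : Type*} [Fintype K] [DecidableEq K] [Fintype J] [DecidableEq J] [Fintype L]
  [DecidableEq L] {n n' : ℕ}

/-- The block diagonal matrix along a relabelling. -/
def blockMat (e : K × Fin n ≃ J) (X : Fin n → CStarMatrix K K ℂ) : CStarMatrix J J ℂ :=
  fun x y => if (e.symm x).2 = (e.symm y).2 then X (e.symm x).2 (e.symm x).1 (e.symm y).1 else 0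

omit [Fintype K] [DecidableEq K] [Fintype J] [DecidableEq J] in
theorem blockMat_apply (e : K × Fin n ≃ J) (X : Fin n → CStarMatrix K K ℂ) (x y : J) :
    blockMat e X x y =
      if (e.symm x).2 = (e.symm y).2 then X (e.symm x).2 (e.symm x).1 (e.symm y).1 else 0 := rfl

/-- Block diagonal matrices along a relabelling. -/
def blockHom (e : K × Fin n ≃ J) : (Fin n → CStarMatrix K K ℂ) →⋆ₐ[ℂ] CStarMatrix J J ℂ where
  toFun X := blockMat e X
  map_one' := by
    ext x y
    simp only [blockMat_apply, Pi.one_apply, CStarMatrix.one_apply]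
    rcases eq_or_ne x y with rfl | h
    · simp
    · simp only [if_neg h, ite_eq_right_iff]
      intro h2 h1
      exact absurd (e.symm.injective (Prod.ext h1 h2)) h
  map_zero' := by
    ext x y
    simp [blockMat_apply, CStarMatrix.zero_apply]
  map_add' X Y := by
    ext x y
    simp only [blockMat_apply, CStarMatrix.add_apply, Pi.add_apply]
    split_ifs <;> simp
  map_mul' X Y := by
    ext x y
    simp only [blockMat_apply, CStarMatrix.mul_apply, Pi.mul_apply]
    rw [← e.sum_comp, Fintype.sum_prod_type_right,
      Finset.sum_eq_single (e.symm x).2 (fun b _ hb => by simp [hb.symm]) (by simp)]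
    split_ifs with h
    · simp [h]
    · simp [h]
  commutes' r := by
    ext x y
    simp only [blockMat_apply, Pi.algebraMap_apply, CStarMatrix.algebraMap_apply]
    rcases eq_or_ne x y with rfl | h
    · simp
    · simp only [if_neg h, ite_eq_right_iff]
      intro h2 h1
      exact absurd (e.symm.injective (Prod.ext h1 h2)) h
  map_star' X := by
    ext x y
    simp only [blockMat_apply, CStarMatrix.star_apply, Pi.star_apply]
    by_cases h : (e.symm x).2 = (e.symm y).2
    · simp [h]
    · simp [h, Ne.symm h]

theorem blockHom_apply (e : K × Fin n ≃ J) (X : Fin n → CStarMatrix K K ℂ) (x y : J) :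
    blockHom e X x y =
      if (e.symm x).2 = (e.symm y).2 then X (e.symm x).2 (e.symm x).1 (e.symm y).1 else 0 := rfl

theorem blockHom_ne_zero (e : K × Fin n ≃ J) {X : Fin n → CStarMatrix K K ℂ} {i : Fin n}
    (h : X i ≠ 0) : blockHom e X ≠ 0 := by
  intro h0
  refine h (CStarMatrix.ext fun a b => ?_)
  have := congrFun (congrFun h0 (e (a, i))) (e (b, i))
  simpa [blockHom_apply] using this

theorem continuous_blockHom (e : K × Fin n ≃ J) : Continuous (blockHom e) :=
  AddMonoidHomClass.continuous_of_bound (blockHom e) 1 fun X => by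
    rw [one_mul]; exact NonUnitalStarAlgHom.norm_apply_le _ X

theorem norm_blockHom_le (e : K × Fin n ≃ J) {X : Fin n → CStarMatrix K K ℂ} {c : ℝ} (hc : 0 ≤ c)
    (h : ∀ i, ‖X i‖ ≤ c) : ‖blockHom e X‖ ≤ c :=
  (NonUnitalStarAlgHom.norm_apply_le _ X).trans ((pi_norm_le_iff_of_nonneg hc).2 h)

/-- Point maps, a relabelling and a path of unitaries. -/
structure Diag (K J : Type*) [Fintype J] [DecidableEq J] (n : ℕ) where
  e : K × Fin n ≃ J
  xi : Fin n → C(unitInterval, unitInterval)
  U : C(unitInterval, CStarMatrix J J ℂ)
  unitary : ∀ t, U t ∈ unitary (CStarMatrix J J ℂ)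

namespace Diag

/-- The values before conjugation. -/
def core (D : Diag K J n) (f : C(unitInterval, CStarMatrix K K ℂ)) (t : unitInterval) :
    CStarMatrix J J ℂ :=
  blockHom D.e fun i => f (D.xi i t)

/-- The homomorphism. -/
def hom (D : Diag K J n) :
    C(unitInterval, CStarMatrix K K ℂ) →⋆ₐ[ℂ] C(unitInterval, CStarMatrix J J ℂ) where
  toFun f := ⟨fun t => D.U t * D.core f t * star (D.U t),
    (D.U.continuous.mul ((continuous_blockHom D.e).comp
      (continuous_pi fun i => f.continuous.comp (D.xi i).continuous))).mul D.U.continuous.star⟩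
  map_one' := by
    refine ContinuousMap.ext fun t => ?_
    show D.U t * blockHom D.e 1 * star (D.U t) = 1
    rw [map_one, mul_one, Unitary.mul_star_self_of_mem (D.unitary t)]
  map_zero' := by
    refine ContinuousMap.ext fun t => ?_
    show D.U t * blockHom D.e 0 * star (D.U t) = 0
    rw [map_zero, mul_zero, zero_mul]
  map_add' f g := by
    refine ContinuousMap.ext fun t => ?_
    show D.U t * blockHom D.e ((fun i => f (D.xi i t)) + fun i => g (D.xi i t)) * star (D.U t) = _
    rw [map_add, mul_add, add_mul]
    rfl
  map_mul' f g := by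
    refine ContinuousMap.ext fun t => ?_
    show D.U t * blockHom D.e ((fun i => f (D.xi i t)) * fun i => g (D.xi i t)) * star (D.U t) =
      D.U t * D.core f t * star (D.U t) * (D.U t * D.core g t * star (D.U t))
    rw [map_mul]
    simp only [core, mul_assoc]
    rw [← mul_assoc (star (D.U t)) (D.U t), Unitary.star_mul_self_of_mem (D.unitary t), one_mul]
  commutes' r := by
    refine ContinuousMap.ext fun t => ?_
    show D.U t * blockHom D.e (algebraMap ℂ _ r) * star (D.U t) = algebraMap ℂ _ r
    rw [AlgHomClass.commutes, ← Algebra.commutes, mul_assoc,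
      Unitary.mul_star_self_of_mem (D.unitary t), mul_one]
  map_star' f := by
    refine ContinuousMap.ext fun t => ?_
    show D.U t * blockHom D.e (star fun i => f (D.xi i t)) * star (D.U t) =
      star (D.U t * D.core f t * star (D.U t))
    rw [map_star, star_mul, star_mul, star_star, mul_assoc]
    rfl

theorem hom_apply (D : Diag K J n) (f : C(unitInterval, CStarMatrix K K ℂ)) (t : unitInterval) :
    D.hom f t = D.U t * D.core f t * star (D.U t) := rfl

theorem hom_ne_zero (D : Diag K J n) {f : C(unitInterval, CStarMatrix K K ℂ)} {t : unitInterval}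
    {i : Fin n} (h : f (D.xi i t) ≠ 0) : D.hom f t ≠ 0 := by
  intro h0
  refine blockHom_ne_zero D.e (X := fun i => f (D.xi i t)) h ?_
  rw [hom_apply] at h0
  calc D.core f t = star (D.U t) * (D.U t * D.core f t * star (D.U t)) * D.U t := by
        simp only [← mul_assoc, Unitary.star_mul_self_of_mem (D.unitary t), one_mul]
        rw [mul_assoc, Unitary.star_mul_self_of_mem (D.unitary t), mul_one]
    _ = 0 := by rw [h0, mul_zero, zero_mul]

/-- Composition of point maps. -/
def comp (D' : Diag J L n') (D : Diag K J n) : Diag K L (n * n') where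
  e := ((Equiv.refl K).prodCongr finProdFinEquiv.symm).trans
    ((Equiv.prodAssoc K (Fin n) (Fin n')).symm.trans
      ((D.e.prodCongr (Equiv.refl (Fin n'))).trans D'.e))
  xi i := (D.xi (finProdFinEquiv.symm i).1).comp (D'.xi (finProdFinEquiv.symm i).2)
  U := ⟨fun t => D'.U t * blockHom D'.e fun j => D.U (D'.xi j t),
    D'.U.continuous.mul ((continuous_blockHom D'.e).comp
      (continuous_pi fun j => D.U.continuous.comp (D'.xi j).continuous))⟩
  unitary t := mul_mem (D'.unitary t) (Unitary.map_mem (blockHom D'.e)
    (Unitary.mem_iff.2 ⟨funext fun j => Unitary.star_mul_self_of_mem (D.unitary _),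
      funext fun j => Unitary.mul_star_self_of_mem (D.unitary _)⟩))

theorem comp_hom (D' : Diag J L n') (D : Diag K J n) (f : C(unitInterval, CStarMatrix K K ℂ)) :
    (D'.comp D).hom f = D'.hom (D.hom f) := by
  refine ContinuousMap.ext fun t => ?_
  have e : (D'.comp D).core f t = blockHom D'.e fun j => D.core f (D'.xi j t) := by
    refine CStarMatrix.ext fun x y => ?_
    simp only [core, blockHom_apply, comp, Equiv.symm_trans_apply, Equiv.symm_symm,
      Equiv.prodCongr_symm, Equiv.refl_symm, Equiv.prodCongr_apply, Prod.map,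
      Equiv.prodAssoc_apply, Equiv.refl_apply, EmbeddingLike.apply_eq_iff_eq, Prod.ext_iff,
      ContinuousMap.comp_apply, Equiv.symm_apply_apply]
    rw [← ite_and]
    exact if_congr and_comm rfl rfl
  rw [hom_apply, hom_apply, e]
  show D'.U t * blockHom D'.e (fun j => D.U (D'.xi j t)) * _ *
      star (D'.U t * blockHom D'.e fun j => D.U (D'.xi j t)) =
    D'.U t * blockHom D'.e ((fun j => D.U (D'.xi j t)) * (fun j => D.core f (D'.xi j t)) *
      star fun j => D.U (D'.xi j t)) * star (D'.U t)
  rw [map_mul, map_mul, map_star, star_mul]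
  simp only [mul_assoc]

end Diag

end Vale.Agent.P101.JiangSu
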