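import Mathlib

/-!
Multiplicity of block-diagonal families of matrices: when such a family is, after a relabelling of
the index set, a family tensored with an identity matrix.
-/

namespace Vale.Agent.P101.JiangSu

open Matrix

variable {D : Type*} {J K ι : Type*}

/-- After relabelling, every `Φ f` is `a f ⊗ 1_q`. -/
def HasMult (Φ : D → Matrix J J ℂ) (q : ℕ) : Prop :=
  ∃ (c : ℕ) (e : J ≃ Fin c × Fin q) (a : D → Matrix (Fin c) (Fin c) ℂ),
    ∀ f x y, Φ f x y = if (e x).2 = (e y).2 then a f (e x).1 (e y).1 else 0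

theorem HasMult.relabel {J' : Type*} {Φ : D → Matrix J J ℂ} {q : ℕ} (h : HasMult Φ q)
    (σ : J' ≃ J) {Φ' : D → Matrix J' J' ℂ} (hΦ : ∀ f x y, Φ' f x y = Φ f (σ x) (σ y)) :
    HasMult Φ' q := by
  obtain ⟨c, e, a, ha⟩ := h
  exact ⟨c, σ.trans e, a, fun f x y => by rw [hΦ, ha]; rfl⟩

theorem HasMult.of_dvd {Φ : D → Matrix J J ℂ} {q d : ℕ} (h : HasMult Φ q) (hd : d ∣ q) :
    HasMult Φ d := by
  obtain ⟨c, e, a, ha⟩ := h
  obtain ⟨s, rfl⟩ := hd
  refine ⟨c * s, e.trans (((Equiv.refl (Fin c)).prodCongr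
    (finProdFinEquiv.symm.trans (Equiv.prodComm _ _))).trans ((Equiv.prodAssoc _ _ _).symm.trans
      (finProdFinEquiv.prodCongr (Equiv.refl (Fin d))))),
    fun f z w => if (finProdFinEquiv.symm z).2 = (finProdFinEquiv.symm w).2 then
      a f (finProdFinEquiv.symm z).1 (finProdFinEquiv.symm w).1 else 0, fun f x y => ?_⟩
  rw [ha]
  have hiff : (e x).2 = (e y).2 ↔ (finProdFinEquiv.symm (e x).2).1 = (finProdFinEquiv.symm (e y).2).1 ∧
      (finProdFinEquiv.symm (e x).2).2 = (finProdFinEquiv.symm (e y).2).2 := by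
    rw [← Prod.ext_iff, Equiv.apply_eq_iff_eq]
  simp only [Equiv.trans_apply, Equiv.prodCongr_apply, Prod.map, Equiv.refl_apply,
    Equiv.prodAssoc_symm_apply, Equiv.prodComm_apply, Prod.swap, Equiv.symm_apply_apply, ← ite_and]
  exact if_congr hiff rfl rfl

/-- Copies multiply the multiplicity. -/
theorem HasMult.copies [DecidableEq ι] [Fintype ι] {F : D → Matrix K K ℂ} {q : ℕ}
    (h : HasMult F q) : HasMult (fun f => blockDiagonal fun _ : ι => F f) (q * Fintype.card ι) := by
  obtain ⟨c, e, a, ha⟩ := h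
  refine ⟨c, (e.prodCongr (Fintype.equivFin ι)).trans ((Equiv.prodAssoc _ _ _).trans
    ((Equiv.refl _).prodCongr finProdFinEquiv)), a, fun f x y => ?_⟩
  simp only [blockDiagonal_apply, ha, Equiv.trans_apply, Equiv.prodCongr_apply, Prod.map,
    Equiv.refl_apply, Equiv.prodAssoc_apply, EmbeddingLike.apply_eq_iff_eq, Prod.ext_iff]
  rw [← ite_and]
  exact if_congr and_comm rfl rfl

/-- A constant family of blocks. -/
theorem HasMult.const_blocks [DecidableEq ι] [Fintype ι] {F : D → Matrix K K ℂ} {q d : ℕ}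
    (h : HasMult F q) {G : D → ι → Matrix K K ℂ} (hG : ∀ f i, G f i = F f)
    (hd : d ∣ q * Fintype.card ι) : HasMult (fun f => blockDiagonal (G f)) d :=
  HasMult.relabel (h.copies.of_dvd hd) (Equiv.refl _) fun f x y => by
    simp only [blockDiagonal_apply, hG, Equiv.refl_apply]

/-- Two groups of blocks. -/
theorem HasMult.split [DecidableEq ι] {G : D → ι → Matrix K K ℂ} {d : ℕ} (p : ι → Prop)
    [DecidablePred p] (h₁ : HasMult (fun f => blockDiagonal fun i : {i // p i} => G f i) d)
    (h₂ : HasMult (fun f => blockDiagonal fun i : {i // ¬ p i} => G f i) d) :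
    HasMult (fun f => blockDiagonal (G f)) d := by
  obtain ⟨c₁, e₁, a₁, ha₁⟩ := h₁
  obtain ⟨c₂, e₂, a₂, ha₂⟩ := h₂
  set S : K × ι ≃ K × {i // p i} ⊕ K × {i // ¬ p i} :=
    ((Equiv.refl K).prodCongr (Equiv.sumCompl p).symm).trans (Equiv.prodSumDistrib _ _ _)
  refine ⟨c₁ + c₂, S.trans ((e₁.sumCongr e₂).trans ((Equiv.sumProdDistrib _ _ _).symm.trans
    (finSumFinEquiv.prodCongr (Equiv.refl _)))),
    fun f => (fromBlocks (a₁ f) 0 0 (a₂ f)).submatrix finSumFinEquiv.symm finSumFinEquiv.symm,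
    fun f x y => ?_⟩
  rw [← S.symm_apply_apply x, ← S.symm_apply_apply y]
  rcases S x with ⟨k, i⟩ | ⟨k, i⟩ <;> rcases S y with ⟨l, j⟩ | ⟨l, j⟩
  · have := ha₁ f (k, i) (l, j)
    simp only [blockDiagonal_apply', Subtype.ext_iff] at this
    simp [S, blockDiagonal_apply', this]
  · have : (i : ι) ≠ j := fun h => j.2 (h ▸ i.2)
    simp [S, blockDiagonal_apply', this]
  · have : (i : ι) ≠ j := fun h => i.2 (h ▸ j.2)
    simp [S, blockDiagonal_apply', this]
  · have := ha₂ f (k, i) (l, j)
    simp only [blockDiagonal_apply', Subtype.ext_iff] at this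
    simp [S, blockDiagonal_apply', this]

/-- With the right cardinality the multiplicity is a tensor decomposition. -/
theorem HasMult.exists_equiv [Fintype J] {Φ : D → Matrix J J ℂ} {P Q : ℕ} (h : HasMult Φ Q)
    (hQ : Q ≠ 0) (hJ : Fintype.card J = P * Q) :
    ∃ (e : J ≃ Fin P × Fin Q) (a : D → Matrix (Fin P) (Fin P) ℂ),
      ∀ f x y, Φ f x y = if (e x).2 = (e y).2 then a f (e x).1 (e y).1 else 0 := by
  obtain ⟨c, e, a, ha⟩ := h
  obtain rfl : c = P := by
    have := Fintype.card_congr e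
    rw [hJ, Fintype.card_prod, Fintype.card_fin, Fintype.card_fin] at this
    exact (Nat.eq_of_mul_eq_mul_right (Nat.pos_of_ne_zero hQ) this).symm
  exact ⟨e, a, ha⟩

/-! ### Paths of unitaries between permutations -/

/-- A continuous path of unitaries from one to `σ`. -/
theorem exists_perm_path [DecidableEq J] [Fintype J] (σ : Equiv.Perm J) :
    ∃ γ : ℝ → Matrix J J ℂ, Continuous γ ∧ (∀ t, γ t ∈ unitaryGroup J ℂ) ∧ γ 0 = 1 ∧
      γ 1 = (1 : Matrix J J ℂ).submatrix σ id := by
  induction σ using Equiv.Perm.swap_induction_on with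
  | one => exact ⟨fun _ => 1, continuous_const, fun _ => one_mem _, rfl, by simp⟩
  | swap_mul f x y hxy ih =>
    obtain ⟨γ, hc, hu, h0, h1⟩ := ih
    set F : Matrix J J ℂ := (1 : Matrix J J ℂ).submatrix (Equiv.swap x y) id with hF
    have hFF : F * F = 1 := by
      ext a b
      rw [mul_apply, Finset.sum_eq_single (Equiv.swap x y a)]
      · simp [hF, one_apply]
      · intro c _ hc
        simp [hF, one_apply, hc.symm]
      · simp
    have hFs : star F = F := by
      ext a b
      rcases eq_or_ne (Equiv.swap x y a) b with h | h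
      · simp [hF, star_apply, one_apply, ← h]
      · have : Equiv.swap x y b ≠ a := fun h' => h (by rw [← h']; simp)
        simp [hF, star_apply, one_apply, h, this]
    set e : ℝ → ℂ := fun t => Complex.exp (Real.pi * t * Complex.I) with he
    set w : ℝ → Matrix J J ℂ := fun t => ((1 + e t) / 2) • 1 + ((1 - e t) / 2) • F with hw
    have hes : ∀ t, starRingEnd ℂ (e t) * e t = 1 := fun t => by
      simp [he, ← Complex.exp_conj, ← Complex.exp_add]
    have hwu : ∀ t, w t ∈ unitaryGroup J ℂ := fun t => by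
      rw [mem_unitaryGroup_iff', hw]
      simp only [star_add, star_smul, star_one, hFs, Complex.star_def, map_add, map_sub, map_one,
        map_div₀, map_ofNat, add_mul, mul_add, smul_mul_smul_comm, one_mul, mul_one, hFF]
      have h := hes t
      have c1 : (1 + starRingEnd ℂ (e t)) / 2 * ((1 + e t) / 2) +
          (1 - starRingEnd ℂ (e t)) / 2 * ((1 - e t) / 2) = 1 := by linear_combination h / 2
      have c2 : (1 - starRingEnd ℂ (e t)) / 2 * ((1 + e t) / 2) +
          (1 + starRingEnd ℂ (e t)) / 2 * ((1 - e t) / 2) = 0 := by linear_combination (-h) / 2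
      calc _ = ((1 + starRingEnd ℂ (e t)) / 2 * ((1 + e t) / 2) +
            (1 - starRingEnd ℂ (e t)) / 2 * ((1 - e t) / 2)) • (1 : Matrix J J ℂ) +
          ((1 - starRingEnd ℂ (e t)) / 2 * ((1 + e t) / 2) +
            (1 + starRingEnd ℂ (e t)) / 2 * ((1 - e t) / 2)) • F := by module
        _ = 1 := by rw [c1, c2, one_smul, zero_smul, add_zero]
    refine ⟨fun t => γ t * w t, hc.matrix_mul (by fun_prop), fun t => mul_mem (hu t) (hwu t),
      by simp [hw, he, h0], ?_⟩
    have hw1 : w 1 = F := by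
      simp [hw, he, Complex.exp_pi_mul_I]
    ext a b
    show (γ 1 * w 1) a b = _
    rw [h1, hw1, mul_apply, Finset.sum_eq_single (f a)]
    · simp [hF, one_apply]
    · intro c _ hc
      simp [one_apply, hc.symm]
    · simp

end Vale.Agent.P101.JiangSu
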